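import Vale.Agent.P011.H359.Rl.Ops
import Mathlib.LinearAlgebra.Lagrange
import Mathlib.FieldTheory.Galois.Basic
import Mathlib.LinearAlgebra.FreeModule.PID
import Mathlib.Analysis.Complex.Basic
import Mathlib.Analysis.SpecificLimits.Basic
import Mathlib.Algebra.Polynomial.Lifts

/-!
Rational curves attached to the cocharacters of a torus.
-/

open Polynomial Filter Topology

namespace Vale.Agent.P011.H359.Rl

section lim

variable {A : Type*} [NormedRing A] [NormedAlgebra ℂ A]

/-- The sequence tends to one with the given speed. -/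
def Lim (a : ℕ → A) (α : A) : Prop := Tendsto (fun n : ℕ => (n : ℂ) • (a n - 1)) atTop (𝓝 α)

theorem Lim.tendsto {a : ℕ → A} {α : A} (h : Lim a α) : Tendsto a atTop (𝓝 1) := by
  have h1 : Tendsto (fun n : ℕ => ((n : ℂ))⁻¹) atTop (𝓝 0) :=
    tendsto_inv_atTop_nhds_zero_nat (𝕜 := ℂ)
  have h2 := (h1.smul h).add_const 1
  rw [zero_smul, zero_add] at h2
  refine h2.congr' ?_
  filter_upwards [eventually_gt_atTop 0] with n hn
  have : (n : ℂ) ≠ 0 := by exact_mod_cast hn.ne'
  rw [smul_smul, inv_mul_cancel₀ this, one_smul, sub_add_cancel]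

theorem Lim.mul {a b : ℕ → A} {α β : A} (ha : Lim a α) (hb : Lim b β) :
    Lim (fun n => a n * b n) (α + β) := by
  have h1 := (Tendsto.mul ha hb.tendsto).add hb
  rw [mul_one] at h1
  refine h1.congr fun n => ?_
  rw [smul_mul_assoc, ← smul_add]
  congr 1
  noncomm_ring

theorem lim_one : Lim (fun _ => (1 : A)) 0 := by
  unfold Lim
  simp

theorem Lim.congr' {a b : ℕ → A} {α : A} (ha : Lim a α) (h : ∀ᶠ n in atTop, a n = b n) :
    Lim b α := by
  refine Tendsto.congr' ?_ ha
  filter_upwards [h] with n hn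
  rw [hn]

theorem Lim.pow {a : ℕ → A} {α : A} (ha : Lim a α) (j : ℕ) :
    Lim (fun n => a n ^ j) ((j : ℂ) • α) := by
  induction j with
  | zero => simpa using lim_one
  | succ j ih =>
    have := ih.mul ha
    simp only [← pow_succ] at this
    rw [Nat.cast_succ, add_smul, one_smul]
    exact this

theorem Lim.inv {a : ℕ → ℂ} {α : ℂ} (ha : Lim a α) : Lim (fun n => (a n)⁻¹) (-α) := by
  have h1 := (Tendsto.mul ha (ha.tendsto.inv₀ one_ne_zero)).neg
  rw [inv_one, mul_one] at h1
  refine h1.congr' ?_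
  have h2 : ∀ᶠ n in atTop, a n ≠ 0 := ha.tendsto.eventually_ne one_ne_zero
  filter_upwards [h2] with n hn
  rw [smul_eq_mul, smul_eq_mul]
  field_simp
  ring

theorem Lim.zpow {a : ℕ → ℂ} {α : ℂ} (ha : Lim a α) (j : ℤ) :
    Lim (fun n => a n ^ j) ((j : ℂ) * α) := by
  obtain ⟨m, rfl | rfl⟩ := j.eq_nat_or_neg
  · simpa using ha.pow m
  · simpa using (ha.pow m).inv

theorem Lim.prod {I : Type*} {a : I → ℕ → ℂ} {α : I → ℂ} (s : Finset I)
    (h : ∀ i ∈ s, Lim (a i) (α i)) : Lim (fun n => ∏ i ∈ s, a i n) (∑ i ∈ s, α i) := by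
  classical
  induction s using Finset.induction_on with
  | empty => simpa using lim_one
  | insert i s hi ih =>
    simp only [Finset.prod_insert hi, Finset.sum_insert hi]
    exact (h i (Finset.mem_insert_self i s)).mul (ih fun j hj => h j (Finset.mem_insert_of_mem hj))

end lim

section coords

variable {M : Type*} [Field M] [CharZero M]

/-- Coordinates on the group generated by a finite set. -/
structure Coords (L : Submodule ℤ M) {r : ℕ} (e : Fin r → M) (l : Fin r → M → ℤ) : Prop where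
  eq : ∀ μ ∈ L, μ = ∑ j, (l j μ : M) * e j
  add : ∀ j, ∀ μ ∈ L, ∀ ν ∈ L, l j (μ + ν) = l j μ + l j ν

theorem exists_coords (P : Finset M) : ∃ (r : ℕ) (e : Fin r → M) (l : Fin r → M → ℤ),
    Coords (Submodule.span ℤ (P : Set M)) e l := by
  classical
  set L := Submodule.span ℤ (P : Set M) with hL
  have hf : Module.Finite ℤ L := Module.Finite.span_finset ℤ P
  let b := Module.finBasis ℤ L
  refine ⟨_, fun j => (b j : M), fun j μ => if h : μ ∈ L then b.repr ⟨μ, h⟩ j else 0, ⟨?_, ?_⟩⟩
  · intro μ hμ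
    have h1 := congrArg (Submodule.subtype L) (b.sum_repr ⟨μ, hμ⟩)
    rw [map_sum] at h1
    simp only [dif_pos hμ]
    refine (Eq.trans ?_ h1).symm
    refine Finset.sum_congr rfl fun j _ => ?_
    simp
  · intro j μ hμ ν hν
    simp only [dif_pos hμ, dif_pos hν, dif_pos (L.add_mem hμ hν)]
    have : (⟨μ + ν, L.add_mem hμ hν⟩ : L) = ⟨μ, hμ⟩ + ⟨ν, hν⟩ := rfl
    rw [this, map_add]
    rfl

variable {k : Type*} [Field k] [Algebra k M] [FiniteDimensional k M]

theorem span_stable {P : Finset M} (hP : ∀ τ : M ≃ₐ[k] M, ∀ μ ∈ P, τ μ ∈ P) (τ : M ≃ₐ[k] M)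
    {μ : M} (hμ : μ ∈ Submodule.span ℤ (P : Set M)) : τ μ ∈ Submodule.span ℤ (P : Set M) := by
  induction hμ using Submodule.span_induction with
  | mem x hx => exact Submodule.subset_span (hP τ x hx)
  | zero => rw [map_zero]; exact zero_mem _
  | add x y _ _ hx hy => rw [map_add]; exact add_mem hx hy
  | smul a x _ hx => rw [map_zsmul]; exact Submodule.smul_mem _ _ hx

/-- The curve in the character group. -/
noncomputable def cc {r : ℕ} (e : Fin r → M) (l : Fin r → M → ℤ) (s : k) (μ : M) : M := by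
  classical
  exact if ∀ (τ : M ≃ₐ[k] M) (j : Fin r), 1 + algebraMap k M s * τ (e j) ≠ 0 then
    ∏ τ : M ≃ₐ[k] M, ∏ j, (1 + algebraMap k M s * τ (e j)) ^ l j (τ.symm μ) else 1

theorem cc_ne_zero {r : ℕ} (e : Fin r → M) (l : Fin r → M → ℤ) (s : k) (μ : M) :
    cc e l s μ ≠ 0 := by
  classical
  unfold cc
  split_ifs with h
  · rw [Finset.prod_ne_zero_iff]
    intro τ _
    rw [Finset.prod_ne_zero_iff]
    intro j _
    exact zpow_ne_zero _ (h τ j)
  · exact one_ne_zero

theorem cc_add {L : Submodule ℤ M} {r : ℕ} {e : Fin r → M} {l : Fin r → M → ℤ}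
    (hl : Coords L e l) (hL : ∀ τ : M ≃ₐ[k] M, ∀ μ ∈ L, τ μ ∈ L) (s : k) {μ ν : M} (hμ : μ ∈ L)
    (hν : ν ∈ L) : cc e l s (μ + ν) = cc e l s μ * cc e l s ν := by
  classical
  unfold cc
  split_ifs with h
  · rw [← Finset.prod_mul_distrib]
    refine Finset.prod_congr rfl fun τ _ => ?_
    rw [← Finset.prod_mul_distrib]
    refine Finset.prod_congr rfl fun j _ => ?_
    rw [map_add, hl.add j _ (hL τ.symm μ hμ) _ (hL τ.symm ν hν), zpow_add₀ (h τ j)]
  · rw [mul_one]

theorem cc_equiv {r : ℕ} (e : Fin r → M) (l : Fin r → M → ℤ) (s : k) (σ : M ≃ₐ[k] M) (μ : M) :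
    σ (cc e l s μ) = cc e l s (σ μ) := by
  classical
  unfold cc
  split_ifs with h
  · rw [map_prod]
    refine Fintype.prod_equiv (Equiv.mulLeft σ) _ _ fun τ => ?_
    rw [map_prod]
    refine Finset.prod_congr rfl fun j _ => ?_
    rw [map_zpow₀, map_add, map_one, map_mul, AlgEquiv.commutes]
    congr 2
    change τ.symm μ = τ.symm (σ.symm (σ μ))
    rw [AlgEquiv.symm_apply_apply]
  · exact map_one _

theorem cc_zero {L : Submodule ℤ M} {r : ℕ} {e : Fin r → M} {l : Fin r → M → ℤ}
    (hl : Coords L e l) (hL : ∀ τ : M ≃ₐ[k] M, ∀ μ ∈ L, τ μ ∈ L) (s : k) :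
    cc e l s 0 = 1 := by
  have h := cc_add hl hL s L.zero_mem L.zero_mem
  rw [add_zero] at h
  exact (mul_eq_left₀ (cc_ne_zero e l s 0)).1 h.symm

theorem lim_cc {L : Submodule ℤ M} {r : ℕ} {e : Fin r → M} {l : Fin r → M → ℤ}
    (hl : Coords L e l) (hL : ∀ τ : M ≃ₐ[k] M, ∀ μ ∈ L, τ μ ∈ L) (ι : M →+* ℂ) {s : ℕ → k} {z : ℂ}
    (hs : Tendsto (fun n : ℕ => (n : ℂ) * ι (algebraMap k M (s n))) atTop (𝓝 z)) {μ : M}
    (hμ : μ ∈ L) : Lim (fun n => ι (cc e l (s n) μ)) (z * Fintype.card (M ≃ₐ[k] M) * ι μ) := by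
  classical
  have h1 : ∀ (τ : M ≃ₐ[k] M) (j : Fin r),
      Lim (fun n => ι (1 + algebraMap k M (s n) * τ (e j))) (z * ι (τ (e j))) := by
    intro τ j
    refine (hs.mul_const (ι (τ (e j)))).congr fun n => ?_
    simp only [map_add, map_one, map_mul, add_sub_cancel_left, smul_eq_mul, mul_assoc]
  have h2 : ∀ᶠ n in atTop, ∀ (τ : M ≃ₐ[k] M) (j : Fin r),
      1 + algebraMap k M (s n) * τ (e j) ≠ 0 := by
    rw [eventually_all]
    intro τ
    rw [eventually_all]
    intro j
    filter_upwards [(h1 τ j).tendsto.eventually_ne one_ne_zero] with n hn h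
    exact hn (by rw [h, map_zero])
  have h3 : Lim (fun n => ∏ τ : M ≃ₐ[k] M, ∏ j : Fin r,
      ι (1 + algebraMap k M (s n) * τ (e j)) ^ l j (τ.symm μ))
      (∑ τ : M ≃ₐ[k] M, ∑ j : Fin r, (l j (τ.symm μ) : ℂ) * (z * ι (τ (e j)))) :=
    Lim.prod _ fun τ _ => Lim.prod _ fun j _ => (h1 τ j).zpow _
  have h4 : ∑ τ : M ≃ₐ[k] M, ∑ j : Fin r, (l j (τ.symm μ) : ℂ) * (z * ι (τ (e j))) =
      z * Fintype.card (M ≃ₐ[k] M) * ι μ := by
    have h5 : ∀ τ : M ≃ₐ[k] M, ∑ j : Fin r, (l j (τ.symm μ) : ℂ) * (z * ι (τ (e j))) = z * ι μ := by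
      intro τ
      have h6 := congrArg (fun x => ι (τ x)) (hl.eq (τ.symm μ) (hL τ.symm μ hμ))
      simp only [AlgEquiv.apply_symm_apply, map_sum, map_mul, map_intCast] at h6
      rw [h6, Finset.mul_sum]
      refine Finset.sum_congr rfl fun j _ => ?_
      ring
    rw [Finset.sum_congr rfl fun τ _ => h5 τ, Finset.sum_const, Finset.card_univ, nsmul_eq_mul]
    ring
  rw [h4] at h3
  refine h3.congr' ?_
  filter_upwards [h2] with n hn
  unfold cc
  rw [if_pos hn, map_prod]
  refine Finset.prod_congr rfl fun τ _ => ?_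
  rw [map_prod]
  refine Finset.prod_congr rfl fun j _ => ?_
  rw [map_zpow₀]

end coords

section interp

variable {k M : Type*} [Field k] [Field M] [DecidableEq M] [Algebra k M]
  [FiniteDimensional k M] [IsGalois k M]

omit [DecidableEq M] in
/-- A polynomial with fixed coefficients comes from the ground field. -/
theorem exists_descent {Q : M[X]} (hQ : ∀ τ : M ≃ₐ[k] M, Q.map (τ : M →+* M) = Q) :
    ∃ F : k[X], F.map (algebraMap k M) = Q := by
  have h : Q ∈ lifts (algebraMap k M) := by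
    rw [lifts_iff_coeff_lifts]
    intro n
    rw [IsGalois.mem_range_algebraMap_iff_fixed]
    intro τ
    have := congrArg (fun q : M[X] => q.coeff n) (hQ τ)
    simp only [coeff_map] at this
    exact this
  exact (mem_lifts Q).1 h

omit [DecidableEq M] in
theorem nodal_descent {P : Finset M} (hP : ∀ τ : M ≃ₐ[k] M, ∀ μ ∈ P, τ μ ∈ P) :
    ∃ m : k[X], m.map (algebraMap k M) = Lagrange.nodal P id := by
  refine exists_descent fun τ => ?_
  rw [Lagrange.nodal_eq, Polynomial.map_prod]
  refine Finset.prod_bij (fun μ _ => τ μ) (fun μ hμ => hP τ μ hμ)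
    (fun _ _ _ _ h => τ.injective h) (fun μ hμ => ⟨τ.symm μ, hP τ.symm μ hμ, ?_⟩) (fun μ _ => ?_)
  · rw [AlgEquiv.apply_symm_apply]
  · simp

/-- Interpolation with equivariant values gives a polynomial over the ground field. -/
theorem interp_descent {P : Finset M} (hP : ∀ τ : M ≃ₐ[k] M, ∀ μ ∈ P, τ μ ∈ P) {c : M → M}
    (hc : ∀ τ : M ≃ₐ[k] M, ∀ μ ∈ P, τ (c μ) = c (τ μ)) :
    ∃ F : k[X], F.map (algebraMap k M) = Lagrange.interpolate P id c := by
  classical
  refine exists_descent fun τ => ?_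
  refine Lagrange.eq_interpolate_of_eval_eq c (Set.injOn_id _) ?_ fun μ hμ => ?_
  · exact (degree_map_le).trans_lt (Lagrange.degree_interpolate_lt c (Set.injOn_id _))
  · have h1 : (id μ : M) = (τ : M →+* M) (τ.symm μ) := (AlgEquiv.apply_symm_apply τ μ).symm
    rw [h1, eval_map_apply]
    have h2 := Lagrange.eval_interpolate_at_node c (Set.injOn_id (P : Set M)) (hP τ.symm μ hμ)
    simp only [id] at h2
    rw [h2]
    change τ (c (τ.symm μ)) = _
    rw [hc τ _ (hP τ.symm μ hμ), AlgEquiv.apply_symm_apply]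

end interp

section idem

variable {K A I : Type*} [Field K] [Ring A] [Algebra K A] [DecidableEq I]

theorem sub_mul_basis (P : Finset I) (v : I → K) {i : I} (hi : i ∈ P) :
    ∃ u : K, (X - C (v i)) * Lagrange.basis P v i = C u * Lagrange.nodal P v := by
  refine ⟨∏ j ∈ P.erase i, (v i - v j)⁻¹, ?_⟩
  rw [Lagrange.basis, Lagrange.nodal_eq, ← Finset.mul_prod_erase P _ hi]
  simp only [Lagrange.basisDivisor]
  rw [Finset.prod_mul_distrib, map_prod]
  ring

/-- The idempotents. -/
noncomputable def idm (P : Finset I) (v : I → K) (s : A) (i : I) : A :=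
  aeval s (Lagrange.basis P v i)

theorem mul_idm {P : Finset I} {v : I → K} {s : A} (hs : aeval s (Lagrange.nodal P v) = 0) {i : I}
    (hi : i ∈ P) : s * idm P v s i = v i • idm P v s i := by
  obtain ⟨u, hu⟩ := sub_mul_basis P v hi
  have h := congrArg (aeval s) hu
  rw [map_mul, map_mul, hs, mul_zero, map_sub, aeval_X, aeval_C, sub_mul, sub_eq_zero] at h
  rw [idm, h, Algebra.smul_def]

theorem sum_idm [Nontrivial A] {P : Finset I} {v : I → K} (hv : Set.InjOn v P) {s : A}
    (hs : aeval s (Lagrange.nodal P v) = 0) : ∑ i ∈ P, idm P v s i = 1 := by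
  have hP : P.Nonempty := by
    rw [Finset.nonempty_iff_ne_empty]
    rintro rfl
    rw [Lagrange.nodal_empty, map_one] at hs
    exact one_ne_zero hs
  have h := congrArg (aeval s) (Lagrange.sum_basis hv hP)
  rw [map_sum, map_one] at h
  exact h

theorem aeval_interp (P : Finset I) (v c : I → K) (s : A) :
    aeval s (Lagrange.interpolate P v c) = ∑ i ∈ P, c i • idm P v s i := by
  rw [Lagrange.interpolate_apply, map_sum]
  refine Finset.sum_congr rfl fun i _ => ?_
  rw [map_mul, aeval_C, idm, Algebra.smul_def]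

theorem eq_sum_idm [Nontrivial A] {P : Finset I} {v : I → K} (hv : Set.InjOn v P) {s : A}
    (hs : aeval s (Lagrange.nodal P v) = 0) : s = ∑ i ∈ P, v i • idm P v s i := by
  calc s = s * ∑ i ∈ P, idm P v s i := by rw [sum_idm hv hs, mul_one]
    _ = _ := by
      rw [Finset.mul_sum]
      exact Finset.sum_congr rfl fun i hi => mul_idm hs hi

theorem map_interp {L : Type*} [Field L] (f : K →+* L) (P : Finset I) (v c : I → K) :
    (Lagrange.interpolate P v c).map f =
      Lagrange.interpolate P (fun i => f (v i)) (fun i => f (c i)) := by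
  simp only [Lagrange.interpolate_apply, Polynomial.map_sum, Polynomial.map_mul, map_C,
    Lagrange.basis, Polynomial.map_prod, Lagrange.basisDivisor, Polynomial.map_sub, map_X, map_inv₀,
    map_sub]

omit [DecidableEq I] in
theorem map_nodal {L : Type*} [Field L] (f : K →+* L) (P : Finset I) (v : I → K) :
    (Lagrange.nodal P v).map f = Lagrange.nodal P (fun i => f (v i)) := by
  simp only [Lagrange.nodal_eq, Polynomial.map_prod, Polynomial.map_sub, map_X, map_C]

end idem

section tri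

variable {K V W I : Type*} [Field K] [AddCommGroup V] [Module K V] [AddCommGroup W] [Module K W]
  [DecidableEq I]

/-- A multiplicative function of a semisimple derivation preserves a trilinear map. -/
theorem poly_tri (T : V →ₗ[K] V →ₗ[K] V →ₗ[K] W) {s : Module.End K V} [Nontrivial V]
    (hT : ∀ x y z, T (s x) y z + T x (s y) z + T x y (s z) = 0) {P : Finset I} {v c : I → K}
    (hv : Set.InjOn v P) (hs : aeval s (Lagrange.nodal P v) = 0)
    (hc : ∀ i ∈ P, ∀ j ∈ P, ∀ l ∈ P, v i + v j + v l = 0 → c i * c j * c l = 1) (x y z : V) :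
    T (aeval s (Lagrange.interpolate P v c) x) (aeval s (Lagrange.interpolate P v c) y)
      (aeval s (Lagrange.interpolate P v c) z) = T x y z := by
  have h0 : ∀ i ∈ P, ∀ x, s (idm P v s i x) = v i • idm P v s i x := by
    intro i hi x
    rw [← Module.End.mul_apply, mul_idm hs hi, LinearMap.smul_apply]
  have h1 : ∀ i ∈ P, ∀ j ∈ P, ∀ l ∈ P, (c i * c j * c l) • T (idm P v s i x) (idm P v s j y)
      (idm P v s l z) = T (idm P v s i x) (idm P v s j y) (idm P v s l z) := by
    intro i hi j hj l hl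
    have h2 := hT (idm P v s i x) (idm P v s j y) (idm P v s l z)
    rw [h0 i hi, h0 j hj, h0 l hl, map_smul, map_smul, map_smul, LinearMap.smul_apply,
      LinearMap.smul_apply, LinearMap.smul_apply, ← add_smul, ← add_smul] at h2
    rcases smul_eq_zero.1 h2 with h3 | h3
    · rw [hc i hi j hj l hl h3, one_smul]
    · rw [h3, smul_zero]
  have h4 : ∀ x, x = ∑ i ∈ P, idm P v s i x := by
    intro x
    have := congrArg (fun f : Module.End K V => f x) (sum_idm hv hs)
    simp only [LinearMap.sum_apply, Module.End.one_apply] at this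
    exact this.symm
  rw [aeval_interp]
  conv_rhs => rw [h4 x, h4 y, h4 z]
  simp only [LinearMap.sum_apply, LinearMap.smul_apply, map_sum, map_smul, Finset.smul_sum,
    smul_smul]
  refine Finset.sum_congr rfl fun l hl => Finset.sum_congr rfl fun j hj =>
    Finset.sum_congr rfl fun i hi => ?_
  refine Eq.trans ?_ (h1 i hi j hj l hl)
  congr 1
  ring

end tri

end Vale.Agent.P011.H359.Rl
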