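import Vale.Agent.P011.H359.Rl.Poly

/-!
Rational curves in the group with a given tangent vector in the Lie algebra over the ground field.
-/

open Polynomial Filter Topology

namespace Vale.Agent.P011.H359.Rl

open Vale.Agent.P011.MPQ Vale.Agent.P011.D4 Vale.Agent.P011.D4.Oct
open Vale.Agent.P011.E6
open Vale.Agent.P011.E6H Vale.Agent.P011.H261.Rl
open Alb

section lim

variable {A : Type*} [NormedRing A] [NormedAlgebra ℂ A]

theorem lim_sum {I : Type*} {P : Finset I} {e : I → A} (he : ∑ i ∈ P, e i = 1) {u : I → ℕ → ℂ}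
    {α : I → ℂ} (h : ∀ i ∈ P, Lim (u i) (α i)) :
    Lim (fun n => ∑ i ∈ P, u i n • e i) (∑ i ∈ P, α i • e i) := by
  have h1 : Tendsto (fun n : ℕ => ∑ i ∈ P, ((n : ℂ) • (u i n - 1)) • e i) atTop
      (𝓝 (∑ i ∈ P, α i • e i)) :=
    tendsto_finsetSum _ fun i hi => (h i hi).smul_const (e i)
  refine h1.congr fun n => ?_
  rw [← he, ← Finset.sum_sub_distrib, Finset.smul_sum]
  refine Finset.sum_congr rfl fun i _ => ?_
  rw [smul_eq_mul, mul_smul, sub_smul, one_smul]

theorem Lim.mul_smul {a b : ℕ → A} {w : ℂ} {s n : A} (ha : Lim a (w • s)) (hb : Lim b (w • n)) :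
    Lim (fun i => a i * b i) (w • (s + n)) := by
  rw [smul_add]
  exact ha.mul hb

theorem lim_interp [Nontrivial A] {I : Type*} [DecidableEq I] {P : Finset I} {v : I → ℂ}
    (hv : Set.InjOn v P) {s : A} (hs : aeval s (Lagrange.nodal P v) = 0) {u : ℕ → I → ℂ} {w : ℂ}
    (h : ∀ i ∈ P, Lim (fun n => u n i) (w * v i)) :
    Lim (fun n => aeval s (Lagrange.interpolate P v (u n))) (w • s) := by
  have h1 := lim_sum (sum_idm hv hs) (u := fun i n => u n i) (α := fun i => w * v i) h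
  have h2 : ∑ i ∈ P, (w * v i) • idm P v s i = w • s := by
    conv_rhs => rw [eq_sum_idm hv hs]
    rw [Finset.smul_sum]
    exact Finset.sum_congr rfl fun μ _ => by rw [mul_smul]
  rw [h2] at h1
  simp only [aeval_interp]
  exact h1

theorem tendsto_zero_of {z : ℕ → ℂ} {r : ℂ}
    (h : Tendsto (fun n : ℕ => (n : ℂ) * z n) atTop (𝓝 r)) : Tendsto z atTop (𝓝 0) := by
  have h1 : Tendsto (fun n : ℕ => ((n : ℂ))⁻¹) atTop (𝓝 0) :=
    tendsto_inv_atTop_nhds_zero_nat (𝕜 := ℂ)
  have h2 := h1.mul h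
  rw [zero_mul] at h2
  refine h2.congr' ?_
  filter_upwards [eventually_gt_atTop 0] with n hn
  have : (n : ℂ) ≠ 0 := by exact_mod_cast hn.ne'
  rw [← mul_assoc, inv_mul_cancel₀ this, one_mul]

theorem lim_exp (B : A) {z : ℕ → ℂ} {r : ℂ}
    (h : Tendsto (fun n : ℕ => (n : ℂ) * z n) atTop (𝓝 r)) (N : ℕ) :
    Lim (fun n => aeval (z n • B) (expP ℂ (N + 2))) (r • B) := by
  have h0 := tendsto_zero_of h
  have h1 : Tendsto (fun n : ℕ => ∑ i ∈ Finset.range N,
      ((n : ℂ) * z n * z n ^ (i + 1)) • (((i + 2).factorial : ℂ)⁻¹ • B ^ (i + 2))) atTop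
      (𝓝 (∑ i ∈ Finset.range N, (r * (0 : ℂ) ^ (i + 1)) • (((i + 2).factorial : ℂ)⁻¹ • B ^ (i + 2)))) :=
    tendsto_finsetSum _ fun i _ => (h.mul (h0.pow (i + 1))).smul_const _
  have h2 := h1.add (h.smul_const B)
  have h3 : (∑ i ∈ Finset.range N, (r * (0 : ℂ) ^ (i + 1)) •
      (((i + 2).factorial : ℂ)⁻¹ • B ^ (i + 2))) + r • B = r • B := by
    rw [Finset.sum_eq_zero, zero_add]
    intro i _
    rw [zero_pow (Nat.succ_ne_zero i), mul_zero, zero_smul]
  rw [h3] at h2
  refine h2.congr fun n => ?_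
  change _ = (n : ℂ) • (aeval (z n • B) (expP ℂ (N + 2)) - 1)
  rw [aeval_expP, Finset.sum_range_succ', Finset.sum_range_succ']
  simp only [zero_add, Nat.factorial_zero, Nat.factorial_one, Nat.cast_one, inv_one, one_smul,
    pow_zero, pow_one, add_sub_cancel_right]
  rw [smul_add, Finset.smul_sum]
  congr 1
  · refine Finset.sum_congr rfl fun i _ => ?_
    rw [_root_.smul_pow, smul_smul, smul_smul, smul_smul]
    congr 1
    ring
  · rw [smul_smul]

end lim

section curve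

variable {k E : Type} [Field k] [CharZero k] [Field E] [Algebra k E] [FiniteDimensional k E]
  {ρ σ : E ≃ₐ[k] E} {lam : Eˣ} {g : Fin 3 → Eˣ} {a b c : kˣ}

attribute [local instance] kmod tower

/-- A rational curve in the group with a given tangent vector. -/
theorem curve [Nonempty (E →+* ℂ)] {X : Module.End E (AlbL E a b c)} (hX : IsG ρ σ lam g X) :
    ∃ m : ℕ, 0 < m ∧ ∃ x : k → G3 ρ σ lam g a b c, ∀ φ : E →+* ℂ, ∀ (t : ℕ → k) (r : ℂ),
      Tendsto (fun n : ℕ => (n : ℂ) * φ (algebraMap k E (t n))) atTop (𝓝 r) →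
        Tendsto (fun n : ℕ => (n : ℂ) • (lc φ (x (t n)).1 - 1)) atTop
          (𝓝 ((r * m) • loc φ X)) := by
  classical
  have : CharZero E := charZero_of_injective_algebraMap (algebraMap k E).injective
  obtain ⟨s, n, m₀, hXs, hcomm, hm0, hs, hn, hsG, hnG⟩ := hX.parts
  obtain ⟨M, _, _, _, _, _, P, m, hst, hneg, hm, hdvd⟩ := exists_split hm0
  have hsm : aeval s m = 0 := by
    obtain ⟨q, rfl⟩ := hdvd
    rw [map_mul, hs, zero_mul]
  obtain ⟨d, e, l, hl⟩ := exists_coords P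
  have hL : ∀ τ : M ≃ₐ[k] M, ∀ μ ∈ Submodule.span ℤ (P : Set M),
      τ μ ∈ Submodule.span ℤ (P : Set M) := fun τ μ hμ => span_stable hst τ hμ
  have hPL : ∀ μ ∈ P, μ ∈ Submodule.span ℤ (P : Set M) := fun μ hμ => Submodule.subset_span hμ
  have hF : ∀ t : k, ∃ F : k[X], F.map (algebraMap k M) =
      Lagrange.interpolate P id (cc e l t) := fun t =>
    interp_descent hst fun τ μ _ => cc_equiv e l t τ μ
  choose F hF using hF
  have hu2 : ∀ t : k, ∀ μ ∈ P, cc e l t (-μ) * cc e l t μ = 1 := by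
    intro t μ hμ
    rw [← cc_add hl hL t (hPL _ (hneg μ hμ)) (hPL μ hμ), neg_add_cancel, cc_zero hl hL]
  have hu3 : ∀ t : k, ∀ μ ∈ P, ∀ ν ∈ P, ∀ κ ∈ P, μ + ν + κ = 0 →
      cc e l t μ * cc e l t ν * cc e l t κ = 1 := by
    intro t μ hμ ν hν κ hκ h0
    rw [← cc_add hl hL t (hPL μ hμ) (hPL ν hν),
      ← cc_add hl hL t (add_mem (hPL μ hμ) (hPL ν hν)) (hPL κ hκ), h0, cc_zero hl hL]
  obtain ⟨j, hj⟩ := hn
  have hj1 : n ^ (j + 1) = 0 := by rw [pow_succ, hj, zero_mul]
  set q : ℕ := Fintype.card (M ≃ₐ[k] M) with hq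
  have hq0 : 0 < q := Fintype.card_pos
  obtain ⟨φ₀⟩ := ‹Nonempty (E →+* ℂ)›
  set y : k → Module.End E (AlbL E a b c) := fun t =>
    aeval s (F t) * aeval ((t * q) • n) (expP k (3 * (j + 1) + 1)) with hy
  have hyM : ∀ t, IsM ρ σ lam g (y t) := by
    intro t
    refine IsM.mul (hsG.poly hneg hm hsm (hF t) (hu2 t) (hu3 t) φ₀) ?_
    exact (hnG.smul (t * q)).exp (j := j + 1) (by rw [_root_.smul_pow, hj1, smul_zero])
  have hx : ∀ t, ∃ x : G3 ρ σ lam g a b c, ∀ v, (x.1 : Equiv.Perm (AlbL E a b c)) v = y t v :=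
    fun t => exists_perm (hyM t)
  choose x hx using hx
  refine ⟨q, hq0, x, fun φ t r ht => ?_⟩
  have h1 : ∀ t, lc φ (x t).1 = locH φ (y t) := by
    intro t
    rw [locH_apply]
    change loc φ _ = loc φ _
    congr 1
    funext v
    exact hx t v
  simp only [h1]
  obtain ⟨ι, hι⟩ := exists_emb (φ.comp (algebraMap k E)) M
  have hν := aeval_nodal_loc φ hm hsm hι
  have h2 : Lim (fun i => locH φ (aeval s (F (t i)))) ((r * q) • locH φ s) := by
    have ht' : Tendsto (fun i : ℕ => (i : ℂ) * ι (algebraMap k M (t i))) atTop (𝓝 r) := by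
      refine ht.congr fun i => ?_
      have := congrArg (fun f : k →+* ℂ => f (t i)) hι
      simp only [RingHom.comp_apply] at this
      rw [this]
    have h3 := lim_interp (v := fun μ => ι μ) (ι.injective.injOn (s := (P : Set M))) hν
      (u := fun i μ => ι (cc e l (t i) μ)) (w := r * q) (fun μ hμ => lim_cc hl hL ι ht' (hPL μ hμ))
    have e1 : (fun i => locH φ (aeval s (F (t i)))) = fun i => aeval (locH φ s)
        (Lagrange.interpolate P (fun μ => ι μ) fun μ => ι (cc e l (t i) μ)) :=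
      funext fun i => aeval_interp_loc φ (hF (t i)) hι
    rw [e1]
    exact h3
  have h6 : Lim (fun i => locH φ (aeval ((t i * q) • n) (expP k (3 * (j + 1) + 1))))
      ((r * q) • locH φ n) := by
    have h7 : ∀ i, locH φ (aeval ((t i * q) • n) (expP k (3 * (j + 1) + 1))) =
        aeval ((φ (algebraMap k E (t i)) * q) • locH φ n) (expP ℂ (3 * j + 2 + 2)) := by
      intro i
      rw [locH_aeval, locH_smul, map_mul, map_mul, map_natCast, map_natCast]
      congr 1
      simp [expP, Polynomial.map_sum, mul_add]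
    simp only [h7]
    refine lim_exp _ ?_ _
    refine (ht.mul_const (q : ℂ)).congr fun i => ?_
    rw [mul_assoc]
  have h8 := h2.mul_smul h6
  have h9 : locH φ s + locH φ n = loc φ X := by
    rw [← map_add, ← hXs]
    rfl
  rw [h9] at h8
  refine h8.congr fun i => ?_
  simp only [hy, map_mul]

end curve

end Vale.Agent.P011.H359.Rl
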