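import Mathlib.LinearAlgebra.JordanChevalley
import Mathlib.LinearAlgebra.Eigenspace.Semisimple
import Mathlib.LinearAlgebra.FreeModule.Finite.Basic
import Mathlib.RingTheory.Nilpotent.Exp
import Mathlib.FieldTheory.Perfect

/-!
The decomposition of an element of a finite dimensional algebra, and commuting operators.
-/

open Polynomial

namespace Vale.Agent.P011.H359.Rl

section jordan

variable {k A : Type*} [Field k] [CharZero k] [Ring A] [Algebra k A] [Module.Finite k A]

/-- The semisimple part is a polynomial in the element. -/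
theorem exists_jordan (X : A) :
    ∃ G m : k[X], m.Separable ∧ aeval (aeval X G) m = 0 ∧ IsNilpotent (X - aeval X G) := by
  obtain ⟨n, hn, s, hs, h1, h2, h3⟩ :=
    Module.End.exists_isNilpotent_isSemisimple (K := k) (f := Algebra.lmul k A X)
  rw [Algebra.adjoin_singleton_eq_range_aeval] at hs
  obtain ⟨G, hG⟩ := hs
  have hG' : Algebra.lmul k A (aeval X G) = s := by
    rw [← hG]
    exact (aeval_algHom_apply (Algebra.lmul k A) X G).symm
  have hinj : Function.Injective (Algebra.lmul k A) := Algebra.lmul_injective
  refine ⟨G, minpoly k s, ?_, ?_, ?_⟩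
  · rw [PerfectField.separable_iff_squarefree]
    exact h2.minpoly_squarefree
  · apply hinj
    rw [map_zero, ← aeval_algHom_apply, hG', minpoly.aeval]
  · have h4 : Algebra.lmul k A (X - aeval X G) = n := by
      rw [map_sub, hG', h3]
      abel
    obtain ⟨j, hj⟩ := h1
    refine ⟨j, hinj ?_⟩
    rw [map_pow, h4, hj, map_zero]

end jordan

section ops

variable {k T : Type*} [Field k] [CharZero k] [AddCommGroup T] [Module k T] [Module.Finite k T]

/-- A vector killed by a sum of a semisimple and a nilpotent operator is killed by both. -/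
theorem killed {D s n : Module.End k T} (hD : D = s + n) (hc : Commute s n) (hs : s.IsSemisimple)
    (hn : IsNilpotent n) {v : T} (hv : D v = 0) : s v = 0 ∧ n v = 0 := by
  have h0 : s v = -(n v) := by
    rw [hD, LinearMap.add_apply] at hv
    exact eq_neg_of_add_eq_zero_left hv
  have h1 : ∀ j : ℕ, (s ^ j) v = (-1 : k) ^ j • (n ^ j) v := by
    intro j
    induction j with
    | zero => simp
    | succ j ih =>
      rw [pow_succ', Module.End.mul_apply, ih, map_smul, ← Module.End.mul_apply s,
        (hc.pow_right j).eq, Module.End.mul_apply, h0, map_neg, ← Module.End.mul_apply,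
        ← pow_succ, pow_succ (-1 : k), mul_smul, neg_one_smul]
  obtain ⟨j, hj⟩ := hn
  have h2 : v ∈ s.maxGenEigenspace 0 := by
    rw [Module.End.mem_maxGenEigenspace]
    refine ⟨j, ?_⟩
    rw [zero_smul, sub_zero, h1, hj, LinearMap.zero_apply, smul_zero]
  rw [hs.isFinitelySemisimple.maxGenEigenspace_eq_eigenspace, Module.End.mem_eigenspace_iff,
    zero_smul] at h2
  refine ⟨h2, ?_⟩
  rw [h2] at h0
  exact neg_eq_zero.1 h0.symm

end ops

end Vale.Agent.P011.H359.Rl
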