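import Vale.Agent.P011.H359.Rl.Jor
import Mathlib.Algebra.Algebra.Rat

/-!
The operators on bilinear and trilinear maps attached to an endomorphism.
-/

open Polynomial

namespace Vale.Agent.P011.H359.Rl

section expP

/-- The truncated exponential. -/
noncomputable def expP (k : Type*) [Field k] (N : ℕ) : k[X] :=
  ∑ i ∈ Finset.range N, C ((i.factorial : k)⁻¹) * X ^ i

variable {k A : Type*} [Field k] [CharZero k] [Ring A] [Algebra k A]

omit [CharZero k] in
theorem aeval_expP (a : A) (N : ℕ) : aeval a (expP k N) =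
    ∑ i ∈ Finset.range N, (i.factorial : k)⁻¹ • a ^ i := by
  simp [expP, Algebra.smul_def]

theorem expP_add {a b : A} (h : Commute a b) {N : ℕ} (ha : a ^ N = 0) (hb : b ^ N = 0)
    (hab : (a + b) ^ N = 0) :
    aeval (a + b) (expP k N) = aeval a (expP k N) * aeval b (expP k N) := by
  let _ : Module ℚ A := Module.compHom A (algebraMap ℚ k)
  have key : ∀ x : A, x ^ N = 0 → aeval x (expP k N) = IsNilpotent.exp x := by
    intro x hx
    rw [aeval_expP, IsNilpotent.exp_eq_sum hx]
    refine Finset.sum_congr rfl fun i _ => ?_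
    change _ = (algebraMap ℚ k ((i.factorial : ℚ)⁻¹)) • x ^ i
    rw [map_inv₀, map_natCast]
  rw [key _ ha, key _ hb, key _ hab, IsNilpotent.exp_add_of_commute h ⟨N, ha⟩ ⟨N, hb⟩]

theorem expP_killed {T : Type*} [AddCommGroup T] [Module k T] {D : Module.End k T} {v : T}
    (h : D v = 0) (N : ℕ) : aeval D (expP k (N + 1)) v = v := by
  rw [aeval_expP, LinearMap.sum_apply, Finset.sum_range_succ']
  have : ∀ i ∈ Finset.range N, (((i + 1).factorial : k)⁻¹ • D ^ (i + 1)) v = 0 := by
    intro i _
    rw [LinearMap.smul_apply, pow_succ, Module.End.mul_apply, h, map_zero, smul_zero]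
  rw [Finset.sum_eq_zero this]
  simp

end expP

section ops

variable {k V Q : Type*} [Field k] [AddCommGroup V] [Module k V] [AddCommGroup Q] [Module k Q]

/-- Composition on the right. -/
noncomputable def pre (Q : Type*) [AddCommGroup Q] [Module k Q] :
    Module.End k V →ₗ[k] Module.End k (V →ₗ[k] Q) := (LinearMap.llcomp k V V Q).flip

@[simp] theorem pre_apply (X : Module.End k V) (f : V →ₗ[k] Q) (x : V) :
    pre Q X f x = f (X x) := rfl

theorem pre_one : pre Q (1 : Module.End k V) = 1 := rfl

theorem pre_mul (X Y : Module.End k V) : pre Q (X * Y) = pre Q Y * pre Q X := rfl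

theorem pre_pow (X : Module.End k V) (n : ℕ) : pre Q (X ^ n) = pre Q X ^ n := by
  induction n with
  | zero => rw [pow_zero, pow_zero, pre_one]
  | succ n ih => rw [pow_succ, pow_succ', pre_mul, ih]

theorem aeval_pre (X : Module.End k V) (F : k[X]) : aeval (pre Q X) F = pre Q (aeval X F) := by
  induction F using Polynomial.induction_on' with
  | add p q hp hq => rw [map_add, map_add, map_add, hp, hq]
  | monomial n a =>
    rw [aeval_monomial, aeval_monomial, ← pre_pow, ← Algebra.smul_def, ← Algebra.smul_def, map_smul]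

/-- Composition on the left. -/
noncomputable def post (V : Type*) [AddCommGroup V] [Module k V] :
    Module.End k Q →ₐ[k] Module.End k (V →ₗ[k] Q) :=
  AlgHom.ofLinearMap (LinearMap.llcomp k V Q Q) rfl fun _ _ => rfl

@[simp] theorem post_apply (Y : Module.End k Q) (f : V →ₗ[k] Q) (x : V) :
    post V Y f x = Y (f x) := rfl

theorem pre_post (X : Module.End k V) (Y : Module.End k Q) : Commute (pre Q X) (post V Y) := rfl

theorem aeval_post (Y : Module.End k Q) (F : k[X]) : aeval (post V Y) F = post V (aeval Y F) :=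
  aeval_algHom_apply (post V) Y F

variable [CharZero k] [Module.Finite k V] [Module.Finite k Q]

omit [CharZero k] [Module.Finite k V] [Module.Finite k Q] in
theorem semis_pre {s : Module.End k V} {m : k[X]} (hm : m.Separable) (h : aeval s m = 0) :
    (pre Q s).IsSemisimple :=
  Module.End.isSemisimple_of_squarefree_aeval_eq_zero hm.squarefree (by rw [aeval_pre, h, map_zero])

omit [CharZero k] [Module.Finite k V] in
theorem semis_post {Y : Module.End k Q} (h : Y.IsSemisimple) : (post V Y).IsSemisimple :=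
  Module.End.isSemisimple_of_squarefree_aeval_eq_zero h.minpoly_squarefree
    (by rw [aeval_post, minpoly.aeval, map_zero])

variable (k V Q)

/-- The data carried along the number of variables. -/
structure Rep (D : Module.End k V →ₗ[k] Module.End k Q) : Prop where
  comm : ∀ X Y, Commute X Y → Commute (D X) (D Y)
  semi : ∀ (s : Module.End k V) (m : k[X]), m.Separable → aeval s m = 0 → (D s).IsSemisimple
  nilp : ∀ n : Module.End k V, IsNilpotent n → IsNilpotent (D n)

/-- One more variable. -/
noncomputable def up1 (D : Module.End k V →ₗ[k] Module.End k Q) :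
    Module.End k V →ₗ[k] Module.End k (V →ₗ[k] Q) :=
  pre Q + (post V).toLinearMap ∘ₗ D

variable {k V Q}

omit [CharZero k] [Module.Finite k V] [Module.Finite k Q] in
@[simp] theorem up1_apply (D : Module.End k V →ₗ[k] Module.End k Q) (X : Module.End k V)
    (f : V →ₗ[k] Q) (x : V) : up1 k V Q D X f x = f (X x) + D X (f x) := rfl

omit [CharZero k] [Module.Finite k V] [Module.Finite k Q] in
theorem up1_eq (D : Module.End k V →ₗ[k] Module.End k Q) (X : Module.End k V) :
    up1 k V Q D X = pre Q X + post V (D X) := rfl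

omit [CharZero k] [Module.Finite k V] [Module.Finite k Q] in
theorem rep_zero : Rep k V Q 0 where
  comm _ _ _ := Commute.refl _
  semi _ _ _ _ := Module.End.isSemisimple_zero
  nilp _ _ := IsNilpotent.zero

theorem Rep.up1 {D : Module.End k V →ₗ[k] Module.End k Q} (h : Rep k V Q D) :
    Rep k V (V →ₗ[k] Q) (up1 k V Q D) where
  comm X Y hXY := by
    have h1 : Commute (pre Q X) (pre Q Y) := by
      change pre Q X * pre Q Y = pre Q Y * pre Q X
      rw [← pre_mul, ← pre_mul, hXY.eq]
    have h2 : Commute (post V (D X)) (post V (D Y)) := (h.comm X Y hXY).map (post V)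
    rw [up1_eq, up1_eq]
    exact (h1.add_right (pre_post X (D Y))).add_left ((pre_post Y (D X)).symm.add_right h2)
  semi s m hm hs := by
    rw [up1_eq]
    exact (semis_pre hm hs).add_of_commute (pre_post s (D s)) (semis_post (h.semi s m hm hs))
  nilp n hn := by
    rw [up1_eq]
    refine Commute.isNilpotent_add (pre_post n (D n)) ?_ ((h.nilp n hn).map (post V))
    obtain ⟨j, hj⟩ := hn
    exact ⟨j, by rw [← pre_pow, hj, map_zero]⟩

theorem Rep.killed {D : Module.End k V →ₗ[k] Module.End k Q} (h : Rep k V Q D)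
    {s n : Module.End k V} (hc : Commute s n) {m : k[X]} (hm : m.Separable) (hs : aeval s m = 0)
    (hn : IsNilpotent n) {v : Q} (hv : D (s + n) v = 0) : D s v = 0 ∧ D n v = 0 :=
  Rl.killed (map_add D s n) (h.comm s n hc) (h.semi s m hm hs) (h.nilp n hn) hv

end ops

section expact

variable {k V Q : Type*} [Field k] [CharZero k] [AddCommGroup V] [Module k V] [AddCommGroup Q]
  [Module k Q]

/-- The exponential of the operator of a nilpotent endomorphism is the action of the exponential. -/
def ExpRep (D : Module.End k V →ₗ[k] Module.End k Q) (A : Module.End k V → Module.End k Q)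
    (r : ℕ) : Prop :=
  ∀ (n : Module.End k V) (j : ℕ), n ^ j = 0 → D n ^ (r * j + 1) = 0 ∧
    ∀ N, r * j + 1 ≤ N → j ≤ N → aeval (D n) (expP k N) = A (aeval n (expP k N))

theorem expRep_zero : ExpRep (k := k) (V := V) (Q := Q) 0 (fun _ => 1) 0 := by
  intro n j _
  refine ⟨by simp, fun N hN _ => ?_⟩
  obtain ⟨M, rfl⟩ : ∃ M, N = M + 1 := ⟨N - 1, by omega⟩
  ext v
  exact expP_killed (k := k) (D := (0 : Module.End k Q)) rfl M

theorem ExpRep.up1 {D : Module.End k V →ₗ[k] Module.End k Q}
    {A : Module.End k V → Module.End k Q} {r : ℕ} (h : ExpRep D A r) :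
    ExpRep (Rl.up1 k V Q D) (fun e => pre Q e * post V (A e)) (r + 1) := by
  intro n j hn
  obtain ⟨h1, h2⟩ := h n j hn
  have e1 : pre Q n ^ j = 0 := by rw [← pre_pow, hn, map_zero]
  have e2 : post V (D n) ^ (r * j + 1) = 0 := by rw [← map_pow, h1, map_zero]
  have e3 : Rl.up1 k V Q D n ^ ((r + 1) * j + 1) = 0 := by
    rw [up1_eq]
    refine Commute.add_pow_eq_zero_of_add_le_succ_of_pow_eq_zero (pre_post n (D n)) e1 e2 ?_
    ring_nf
    omega
  refine ⟨e3, fun N hN hj => ?_⟩
  have hN' : r * j + 1 ≤ N := by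
    have : (r + 1) * j = r * j + j := by ring
    omega
  rw [up1_eq] at e3 ⊢
  rw [expP_add (pre_post n (D n)) (pow_eq_zero_of_le hj e1) (pow_eq_zero_of_le hN' e2)
    (pow_eq_zero_of_le hN e3), aeval_pre, aeval_post, h2 N hN' hj]

/-- The truncated exponential of a nilpotent derivation preserves a bilinear map. -/
theorem exp_bil (T : V →ₗ[k] V →ₗ[k] Q) {n : Module.End k V} {j : ℕ} (hn : n ^ j = 0)
    (hT : ∀ x y, T (n x) y + T x (n y) = 0) {N : ℕ} (hN : 3 * j + 1 ≤ N) (x y : V) :
    T (aeval n (expP k N) x) (aeval n (expP k N) y) = T x y := by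
  have h := (expRep_zero (k := k) (V := V) (Q := Q)).up1.up1
  obtain ⟨-, h1⟩ := h n j hn
  have h2 := h1 N (by omega) (by omega)
  obtain ⟨M, rfl⟩ : ∃ M, N = M + 1 := ⟨N - 1, by omega⟩
  have h3 : (up1 k V _ (up1 k V Q 0)) n T = 0 := by
    ext x y
    simpa using hT x y
  have h4 := expP_killed h3 M
  rw [h2] at h4
  exact congrArg (fun f : V →ₗ[k] V →ₗ[k] Q => f x y) h4

/-- The truncated exponential of a nilpotent derivation preserves a trilinear map. -/
theorem exp_tri (T : V →ₗ[k] V →ₗ[k] V →ₗ[k] Q) {n : Module.End k V} {j : ℕ} (hn : n ^ j = 0)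
    (hT : ∀ x y z, T (n x) y z + T x (n y) z + T x y (n z) = 0) {N : ℕ} (hN : 3 * j + 1 ≤ N)
    (x y z : V) :
    T (aeval n (expP k N) x) (aeval n (expP k N) y) (aeval n (expP k N) z) = T x y z := by
  have h := (expRep_zero (k := k) (V := V) (Q := Q)).up1.up1.up1
  obtain ⟨-, h1⟩ := h n j hn
  have h2 := h1 N (by omega) (by omega)
  obtain ⟨M, rfl⟩ : ∃ M, N = M + 1 := ⟨N - 1, by omega⟩
  have h3 : (up1 k V _ (up1 k V _ (up1 k V Q 0))) n T = 0 := by
    ext x y z
    simpa [add_assoc] using hT x y z
  have h4 := expP_killed (k := k) (D := (up1 k V _ (up1 k V _ (up1 k V Q 0))) n) (v := T) h3 M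
  rw [h2] at h4
  exact congrArg (fun f : V →ₗ[k] V →ₗ[k] V →ₗ[k] Q => f x y z) h4

variable [Module.Finite k V] [Module.Finite k Q]

/-- The parts of a derivation of a bilinear map. -/
theorem jordan_bil (T : V →ₗ[k] V →ₗ[k] Q) {s n : Module.End k V} (hc : Commute s n) {m : k[X]}
    (hm : m.Separable) (hs : aeval s m = 0) (hn : IsNilpotent n)
    (hT : ∀ x y, T ((s + n) x) y + T x ((s + n) y) = 0) :
    (∀ x y, T (s x) y + T x (s y) = 0) ∧ ∀ x y, T (n x) y + T x (n y) = 0 := by
  have h := (rep_zero (k := k) (V := V) (Q := Q)).up1.up1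
  have h3 : (up1 k V _ (up1 k V Q 0)) (s + n) T = 0 := by
    ext x y
    have := hT x y
    simp only [LinearMap.add_apply, map_add] at this
    simp only [up1_apply, LinearMap.add_apply, map_add, LinearMap.zero_apply, add_zero]
    rw [← this]
    abel
  obtain ⟨h4, h5⟩ := h.killed hc hm hs hn h3
  constructor
  · intro x y
    simpa using congrArg (fun f : V →ₗ[k] V →ₗ[k] Q => f x y) h4
  · intro x y
    simpa using congrArg (fun f : V →ₗ[k] V →ₗ[k] Q => f x y) h5

/-- The parts of a derivation of a trilinear map. -/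
theorem jordan_tri (T : V →ₗ[k] V →ₗ[k] V →ₗ[k] Q) {s n : Module.End k V} (hc : Commute s n)
    {m : k[X]} (hm : m.Separable) (hs : aeval s m = 0) (hn : IsNilpotent n)
    (hT : ∀ x y z, T ((s + n) x) y z + T x ((s + n) y) z + T x y ((s + n) z) = 0) :
    (∀ x y z, T (s x) y z + T x (s y) z + T x y (s z) = 0) ∧
      ∀ x y z, T (n x) y z + T x (n y) z + T x y (n z) = 0 := by
  have h := (rep_zero (k := k) (V := V) (Q := Q)).up1.up1.up1
  have h3 : (up1 k V _ (up1 k V _ (up1 k V Q 0))) (s + n) T = 0 := by
    ext x y z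
    have := hT x y z
    simp only [LinearMap.add_apply, map_add] at this
    simp only [up1_apply, LinearMap.add_apply, map_add, LinearMap.zero_apply, add_zero]
    rw [← this]
    abel
  obtain ⟨h4, h5⟩ := h.killed hc hm hs hn h3
  constructor
  · intro x y z
    simpa [add_assoc] using congrArg (fun f : V →ₗ[k] V →ₗ[k] V →ₗ[k] Q => f x y z) h4
  · intro x y z
    simpa [add_assoc] using congrArg (fun f : V →ₗ[k] V →ₗ[k] V →ₗ[k] Q => f x y z) h5

omit [CharZero k] [Module.Finite k V] [Module.Finite k Q] in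
theorem move_poly (T : V →ₗ[k] V →ₗ[k] Q) {s : Module.End k V}
    (hT : ∀ x y, T (s x) y + T x (s y) = 0) (F : k[X]) (x y : V) :
    T (aeval s F x) y = T x (aeval (-s) F y) := by
  have h1 : ∀ (n : ℕ) x y, T ((s ^ n) x) y = T x (((-s) ^ n) y) := by
    intro n
    induction n with
    | zero => intro x y; simp
    | succ n ih =>
      intro x y
      rw [pow_succ, Module.End.mul_apply, ih, pow_succ', Module.End.mul_apply, LinearMap.neg_apply,
        map_neg]
      exact eq_neg_of_add_eq_zero_left (hT _ _)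
  induction F using Polynomial.induction_on' with
  | add p q hp hq => simp only [map_add, LinearMap.add_apply, hp, hq]
  | monomial n a =>
    rw [aeval_monomial, aeval_monomial, ← Algebra.smul_def, ← Algebra.smul_def,
      LinearMap.smul_apply, LinearMap.smul_apply, map_smul, map_smul, LinearMap.smul_apply, h1]

omit [CharZero k] [Module.Finite k V] [Module.Finite k Q] in
/-- Polynomials in a semisimple derivation of a bilinear map. -/
theorem poly_bil (T : V →ₗ[k] V →ₗ[k] Q) {s : Module.End k V}
    (hT : ∀ x y, T (s x) y + T x (s y) = 0) {m F : k[X]} (hm : aeval s m = 0)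
    (hF : m ∣ F.comp (-X) * F - 1) (x y : V) :
    T (aeval s F x) (aeval s F y) = T x y := by
  rw [move_poly T hT]
  congr 1
  rw [← Module.End.mul_apply]
  have h1 : aeval (-s) F = aeval s (F.comp (-X)) := by
    rw [aeval_comp]
    simp
  obtain ⟨R, hR⟩ := hF
  have h2 : aeval (-s) F * aeval s F = 1 := by
    rw [h1, ← map_mul, show F.comp (-X) * F = m * R + 1 by rw [← hR]; ring, map_add, map_mul, hm,
      zero_mul, zero_add, map_one]
  rw [h2, Module.End.one_apply]

end expact

end Vale.Agent.P011.H359.Rl
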