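import Vale.Agent.P011.H359.Rl.Tri
import Vale.Agent.P011.H450.R.Ev
import Mathlib.FieldTheory.SplittingField.Construction
import Mathlib.FieldTheory.IsAlgClosed.Basic
import Mathlib.Analysis.Complex.Polynomial.Basic

/-!
Polynomials in a semisimple element of the Lie algebra over the ground field.
-/

open Polynomial

namespace Vale.Agent.P011.H359.Rl

open Vale.Agent.P011.MPQ Vale.Agent.P011.D4 Vale.Agent.P011.D4.Oct
open Vale.Agent.P011.E6
open Vale.Agent.P011.E6H Vale.Agent.P011.H261.Rl
open Alb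

section split

variable {k : Type} [Field k] [CharZero k]

theorem nodal_dvd {M : Type*} [Field M] (P : Finset M) {G : M[X]} (h : ∀ μ ∈ P, eval μ G = 0) :
    Lagrange.nodal P id ∣ G := by
  rw [Lagrange.nodal_eq]
  refine Finset.prod_dvd_of_coprime ?_ fun μ hμ => dvd_iff_isRoot.2 (h μ hμ)
  intro x _ y _ hxy
  exact pairwise_coprime_X_sub_C Function.injective_id hxy

/-- A Galois extension which contains the roots of a polynomial. -/
theorem exists_split {m₀ : k[X]} (hm : m₀.Separable) :
    ∃ (M : Type) (_ : Field M) (_ : Algebra k M) (_ : FiniteDimensional k M) (_ : IsGalois k M)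
      (_ : CharZero M) (P : Finset M) (m : k[X]), (∀ τ : M ≃ₐ[k] M, ∀ μ ∈ P, τ μ ∈ P) ∧
      (∀ μ ∈ P, -μ ∈ P) ∧ m.map (algebraMap k M) = Lagrange.nodal P id ∧ m₀ ∣ m := by
  classical
  set p : k[X] := m₀ * m₀.comp (-X) with hp
  have hm0 : m₀ ≠ 0 := hm.ne_zero
  have hc0 : m₀.comp (-X) ≠ 0 := by
    intro h
    apply hm0
    have h1 : (m₀.comp (-X)).comp (-X) = m₀ := by
      rw [comp_assoc]
      simp
    rw [← h1, h, zero_comp]
  have hp0 : p ≠ 0 := mul_ne_zero hm0 hc0
  let M := p.SplittingField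
  have hchar : CharZero M := charZero_of_injective_algebraMap (algebraMap k M).injective
  have hnor : Normal k M := Normal.of_isSplittingField p
  have hgal : IsGalois k M := isGalois_iff.2 ⟨inferInstance, hnor⟩
  let P : Finset M := (p.map (algebraMap k M)).roots.toFinset
  have hpm : p.map (algebraMap k M) ≠ 0 := (Polynomial.map_ne_zero_iff (algebraMap k M).injective).2 hp0
  have hP : ∀ μ : M, μ ∈ P ↔ aeval μ p = 0 := by
    intro μ
    simp only [P, Multiset.mem_toFinset]
    rw [mem_roots hpm, IsRoot.def, eval_map_algebraMap]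
  have hpe : ∀ μ : M, aeval μ p = aeval μ m₀ * aeval (-μ) m₀ := by
    intro μ
    have : aeval μ (m₀ * m₀.comp (-X)) = aeval μ m₀ * aeval (-μ) m₀ := by
      rw [map_mul, aeval_comp, map_neg, aeval_X]
    exact this
  have hst : ∀ τ : M ≃ₐ[k] M, ∀ μ ∈ P, τ μ ∈ P := by
    intro τ μ hμ
    rw [hP] at hμ ⊢
    have := aeval_algHom_apply (τ : M →ₐ[k] M) μ p
    rw [hμ, map_zero] at this
    exact this
  obtain ⟨m, hm1⟩ := nodal_descent hst
  refine ⟨M, inferInstance, inferInstance, inferInstance, hgal, hchar, P, m, hst, ?_, hm1, ?_⟩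
  · intro μ hμ
    rw [hP] at hμ ⊢
    rw [hpe] at hμ ⊢
    rw [neg_neg, mul_comm]
    exact hμ
  · rw [← Polynomial.map_dvd_map' (algebraMap k M), hm1]
    have hs : (m₀.map (algebraMap k M)).Splits := by
      have h1 : ((m₀ * m₀.comp (-X)).map (algebraMap k M)).Splits := SplittingField.splits p
      rw [Polynomial.map_mul] at h1
      exact (splits_mul (by simpa using hm0) (by simpa [Polynomial.map_ne_zero_iff (algebraMap k M).injective] using hc0)).1 h1 |>.1
    have h2 := hs.eq_prod_roots
    have h3 : (m₀.map (algebraMap k M)).roots ≤ P.val := by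
      rw [Multiset.le_iff_subset (nodup_roots hm.map)]
      intro μ hμ
      rw [mem_roots ((Polynomial.map_ne_zero_iff (algebraMap k M).injective).2 hm0), IsRoot.def, eval_map_algebraMap] at hμ
      change μ ∈ P
      rw [hP, hpe, hμ, zero_mul]
    rw [h2, Lagrange.nodal_eq]
    have h4 : ((m₀.map (algebraMap k M)).roots.map (fun a => X - C a)).prod ∣
        ∏ i ∈ P, (X - C (id i)) :=
      Multiset.prod_dvd_prod_of_le (Multiset.map_le_map h3)
    have h5 : IsUnit (C (m₀.map (algebraMap k M)).leadingCoeff) := by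
      rw [isUnit_C, isUnit_iff_ne_zero, leadingCoeff_ne_zero]
      exact (Polynomial.map_ne_zero_iff (algebraMap k M).injective).2 hm0
    exact (h5.mul_left_dvd).2 h4

omit [CharZero k] in
/-- An extension of a complex embedding. -/
theorem exists_emb (ψ : k →+* ℂ) (M : Type) [Field M] [Algebra k M] [FiniteDimensional k M] :
    ∃ ι : M →+* ℂ, ι.comp (algebraMap k M) = ψ := by
  let _ : Algebra k ℂ := ψ.toAlgebra
  let f : M →ₐ[k] ℂ := IsAlgClosed.lift
  exact ⟨f.toRingHom, f.comp_algebraMap⟩

end split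

section loc

variable {k E : Type} [Field k] [Field E] [Algebra k E] {a b c : kˣ}

attribute [local instance] kmod tower

/-- The base change as a homomorphism of rings. -/
noncomputable def locH (φ : E →+* ℂ) : Module.End E (AlbL E a b c) →+* RE φ a b c where
  toFun f := loc φ f
  map_one' := loc_one φ
  map_mul' f g := loc_mul φ (map_add f) (map_smul f) (map_add g) (map_smul g)
  map_zero' := by
    apply ext_R φ
    intro x
    rw [loc_ev φ (map_add _) (map_smul _)]
    have h := ev_smul φ (0 : E) (0 : AlbL E a b c)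
    rw [zero_smul, map_zero, zero_smul] at h
    exact h
  map_add' f g := by
    apply ext_R φ
    intro x
    rw [loc_ev φ (map_add _) (map_smul _)]
    change _ = loc φ f (ev φ x) + loc φ g (ev φ x)
    rw [loc_ev φ (map_add _) (map_smul _), loc_ev φ (map_add _) (map_smul _)]
    exact ev_add φ _ _

theorem locH_apply (φ : E →+* ℂ) (f : Module.End E (AlbL E a b c)) : locH φ f = loc φ f := rfl

theorem locH_ev (φ : E →+* ℂ) (f : Module.End E (AlbL E a b c)) (x : AlbL E a b c) :
    locH φ f (ev φ x) = ev φ (f x) := loc_ev φ (map_add _) (map_smul _) x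

theorem locH_algebraMap (φ : E →+* ℂ) (t : k) :
    locH φ (algebraMap k (Module.End E (AlbL E a b c)) t) =
      algebraMap ℂ (RE φ a b c) (φ (algebraMap k E t)) := by
  apply ext_R φ
  intro x
  rw [locH_ev]
  change ev φ (t • x) = φ (algebraMap k E t) • ev φ x
  rw [ksmul, ev_smul]

theorem locH_aeval (φ : E →+* ℂ) (X : Module.End E (AlbL E a b c)) (F : k[X]) :
    locH φ (aeval X F) = aeval (locH φ X) (F.map (φ.comp (algebraMap k E))) := by
  rw [aeval_def, hom_eval₂, aeval_def, eval₂_map]
  congr 1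
  ext t : 1
  exact locH_algebraMap φ t

theorem locH_smul (φ : E →+* ℂ) (t : k) (X : Module.End E (AlbL E a b c)) :
    locH φ (t • X) = φ (algebraMap k E t) • locH φ X := by
  rw [Algebra.smul_def, map_mul, locH_algebraMap, ← Algebra.smul_def]

/-- Two trilinear maps which agree on the image of the ground field are equal. -/
theorem ext3 (φ : E →+* ℂ) {W : Type} [AddCommGroup W] [Module ℂ W]
    {T T' : Alb (uw φ (up E a)) (uw φ (up E b)) (uw φ (up E c)) →ₗ[ℂ]
      Alb (uw φ (up E a)) (uw φ (up E b)) (uw φ (up E c)) →ₗ[ℂ]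
      Alb (uw φ (up E a)) (uw φ (up E b)) (uw φ (up E c)) →ₗ[ℂ] W}
    (h : ∀ x y z : AlbL E a b c, T (ev φ x) (ev φ y) (ev φ z) = T' (ev φ x) (ev φ y) (ev φ z)) :
    T = T' :=
  ext_ev φ fun x => ext_ev φ fun y => ext_ev φ fun z => h x y z

/-- The base change of a derivation. -/
theorem tri_loc (φ : E →+* ℂ) {X : Module.End E (AlbL E a b c)}
    (h : ∀ x, Alb.tf (X x) (Alb.adj x) = 0) (x y z) :
    tri (uw φ (up E a)) (uw φ (up E b)) (uw φ (up E c)) (locH φ X x) y z +
      tri _ _ _ x (locH φ X y) z + tri _ _ _ x y (locH φ X z) = 0 := by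
  obtain ⟨L, hL⟩ : ∃ L : Module.End ℂ (Alb (uw φ (up E a)) (uw φ (up E b)) (uw φ (up E c))),
    L = (locH φ X).toLinearMap := ⟨_, rfl⟩
  have hLx : ∀ x, locH φ X x = L x := fun x => by rw [hL]; rfl
  have hLe : ∀ x, L (ev φ x) = ev φ (X x) := fun x => by rw [← hLx]; exact locH_ev φ X x
  have key : (up1 ℂ _ _ (up1 ℂ _ _ (up1 ℂ _ _ 0))) L
      (tri (uw φ (up E a)) (uw φ (up E b)) (uw φ (up E c))) = 0 := by
    apply ext3 φ
    intro x y z
    simp only [up1_apply, LinearMap.add_apply, LinearMap.zero_apply, add_zero, hLe, tri_apply]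
    rw [Vale.Agent.P011.H450.R.tri_ev, Vale.Agent.P011.H450.R.tri_ev,
      Vale.Agent.P011.H450.R.tri_ev, ← map_add, ← map_add, ← map_zero φ]
    congr 1
    rw [← add_assoc]
    exact tri_of_der h x y z
  have h1 := congrArg (fun T => T x y z) key
  simp only [up1_apply, LinearMap.add_apply, LinearMap.zero_apply, add_zero] at h1
  rw [hLx, hLx, hLx, add_assoc]
  exact h1

/-- The values of the roots. -/
theorem aeval_nodal_loc (φ : E →+* ℂ) {s : Module.End E (AlbL E a b c)} {M : Type} [Field M]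
    [Algebra k M] {P : Finset M} {m : k[X]} (hm : m.map (algebraMap k M) = Lagrange.nodal P id)
    (hs : aeval s m = 0) {ι : M →+* ℂ}
    (hι : ι.comp (algebraMap k M) = φ.comp (algebraMap k E)) :
    aeval (locH φ s) (Lagrange.nodal P fun μ => ι μ) = 0 := by
  have h1 : Lagrange.nodal P (fun μ => ι μ) = m.map (φ.comp (algebraMap k E)) := by
    rw [← hι, ← Polynomial.map_map, hm, map_nodal]
    rfl
  rw [h1, ← locH_aeval, hs, map_zero]

/-- The values of an interpolation polynomial. -/
theorem aeval_interp_loc (φ : E →+* ℂ) {s : Module.End E (AlbL E a b c)} {M : Type} [Field M]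
    [Algebra k M] [DecidableEq M] {P : Finset M} {u : M → M} {F : k[X]}
    (hF : F.map (algebraMap k M) = Lagrange.interpolate P id u) {ι : M →+* ℂ}
    (hι : ι.comp (algebraMap k M) = φ.comp (algebraMap k E)) :
    locH φ (aeval s F) =
      aeval (locH φ s) (Lagrange.interpolate P (fun μ => ι μ) fun μ => ι (u μ)) := by
  rw [locH_aeval, ← hι, ← Polynomial.map_map, hF, map_interp]
  rfl

variable [CharZero k] [FiniteDimensional k E] {ρ σ : E ≃ₐ[k] E} {lam : Eˣ} {g : Fin 3 → Eˣ}

omit [FiniteDimensional k E] in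
/-- Multiplicative functions of a semisimple element. -/
theorem IsG.poly {s : Module.End E (AlbL E a b c)} (h : IsG ρ σ lam g s) {M : Type} [Field M]
    [Algebra k M] [FiniteDimensional k M] [DecidableEq M] {P : Finset M} {m : k[X]}
    (hneg : ∀ μ ∈ P, -μ ∈ P) (hm : m.map (algebraMap k M) = Lagrange.nodal P id)
    (hs : aeval s m = 0) {u : M → M} {F : k[X]}
    (hF : F.map (algebraMap k M) = Lagrange.interpolate P id u)
    (hu2 : ∀ μ ∈ P, u (-μ) * u μ = 1)
    (hu3 : ∀ μ ∈ P, ∀ ν ∈ P, ∀ κ ∈ P, μ + ν + κ = 0 → u μ * u ν * u κ = 1) (φ : E →+* ℂ) :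
    IsM ρ σ lam g (aeval s F) := by
  refine ⟨fun x => ?_, fun x y => ?_, aeval_ph h.ph F⟩
  · obtain ⟨ι, hι⟩ := exists_emb (φ.comp (algebraMap k E)) M
    obtain ⟨L, hL⟩ : ∃ L : Module.End ℂ (Alb (uw φ (up E a)) (uw φ (up E b)) (uw φ (up E c))),
      L = (locH φ s).toLinearMap := ⟨_, rfl⟩
    have hLx : ∀ G : ℂ[X], aeval L G = (aeval (locH φ s) G).toLinearMap := by
      intro G
      rw [hL]
      let j : RE φ a b c →ₐ[ℂ]
          Module.End ℂ (Alb (uw φ (up E a)) (uw φ (up E b)) (uw φ (up E c))) :=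
        { ContinuousLinearMap.toLinearMapRingHom with commutes' := fun _ => rfl }
      exact aeval_algHom_apply j (locH φ s) G
    have h1 : ∀ x y z, tri (uw φ (up E a)) (uw φ (up E b)) (uw φ (up E c)) (L x) y z +
        tri _ _ _ x (L y) z + tri _ _ _ x y (L z) = 0 := by
      intro x y z
      rw [hL]
      exact tri_loc φ h.cub x y z
    have h2 := poly_tri (tri (uw φ (up E a)) (uw φ (up E b)) (uw φ (up E c))) h1
      (P := P) (v := fun μ => ι μ) (c := fun μ => ι (u μ)) (ι.injective.injOn)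
      (by rw [hLx, aeval_nodal_loc φ hm hs hι]; rfl)
      (fun μ hμ ν hν κ hκ h3 => by
        rw [← map_mul, ← map_mul, hu3 μ hμ ν hν κ hκ, map_one]
        apply ι.injective
        rw [map_add, map_add, map_zero]
        exact h3)
    have h3 := cub_of_tri h2 (ev φ x)
    rw [hLx, ← aeval_interp_loc φ hF hι] at h3
    change Alb.cub (locH φ (aeval s F) (ev φ x)) = _ at h3
    rw [locH_ev, Vale.Agent.P011.H450.R.cub_ev, Vale.Agent.P011.H450.R.cub_ev] at h3
    exact φ.injective h3
  · have h1 : m ∣ F.comp (-X) * F - 1 := by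
      rw [← Polynomial.map_dvd_map' (algebraMap k M), hm]
      apply nodal_dvd
      intro μ hμ
      have e1 : ∀ ν ∈ P, eval ν (F.map (algebraMap k M)) = u ν := by
        intro ν hν
        rw [hF]
        exact Lagrange.eval_interpolate_at_node u (Set.injOn_id _) hν
      simp only [Polynomial.map_sub, Polynomial.map_mul, Polynomial.map_comp, Polynomial.map_neg,
        map_X, Polynomial.map_one, eval_sub, eval_mul, eval_comp, eval_neg, eval_X, eval_one]
      rw [e1 μ hμ, e1 (-μ) (hneg μ hμ), hu2 μ hμ, sub_self]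
    have h2 := poly_bil (herK σ g) (s := rs s) h.her (m := m) (F := F)
      (by rw [aeval_algHom_apply, hs, map_zero]) h1 x y
    rw [aeval_algHom_apply] at h2
    exact h2

end loc

end Vale.Agent.P011.H359.Rl
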