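import Vale.Agent.P011.H359.Rl.Coch
import Vale.Agent.P011.H261.Rl.Spec
import Vale.Agent.P011.E6.Ids2

/-!
The Lie algebra over the ground field: the parts of its elements, exponentials and polynomials.
-/

open Polynomial

namespace Vale.Agent.P011.H359.Rl

open Vale.Agent.P011.MPQ Vale.Agent.P011.D4 Vale.Agent.P011.D4.Oct
open Vale.Agent.P011.E6
open Vale.Agent.P011.E6H Vale.Agent.P011.H261.Rl
open Alb

section tri

variable {F : Type} [Field F] {a b c : Fˣ}

/-- The trilinear form. -/
def tri (a b c : Fˣ) : Alb a b c →ₗ[F] Alb a b c →ₗ[F] Alb a b c →ₗ[F] F :=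
  LinearMap.mk₂ F (fun x y =>
    { toFun := fun z => tf (cross x y) z
      map_add' := fun z w => tf_add_right _ _ _
      map_smul' := fun t z => tf_smul_right _ _ _ })
    (fun x x' y => by
      ext z
      change tf (cross (x + x') y) z = tf (cross x y) z + tf (cross x' y) z
      rw [cross_add_left, tf_add_left])
    (fun t x y => by
      ext z
      change tf (cross (t • x) y) z = t * tf (cross x y) z
      rw [cross_smul_left, tf_smul_left])
    (fun x y y' => by
      ext z
      change tf (cross x (y + y')) z = tf (cross x y) z + tf (cross x y') z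
      rw [cross_add_right, tf_add_left])
    (fun t x y => by
      ext z
      change tf (cross x (t • y)) z = t * tf (cross x y) z
      rw [cross_smul_right, tf_smul_left])

theorem tri_apply (x y z : Alb a b c) : tri a b c x y z = tf (cross x y) z := rfl

theorem tri_self (x : Alb a b c) : tri a b c x x x = 6 * cub x := by
  rw [tri_apply, Alb.cross_self, tf_smul_left, tf_adj_self]
  ring

theorem tri_of_der {X : Alb a b c →ₗ[F] Alb a b c} (h : ∀ x, tf (X x) (adj x) = 0)
    (x y z : Alb a b c) : tri a b c (X x) y z + tri a b c x (X y) z + tri a b c x y (X z) = 0 := by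
  have h1 := h (x + y + z)
  have h2 := h (x + y)
  have h3 := h (y + z)
  have h4 := h (x + z)
  have h5 := h x
  have h6 := h y
  have h7 := h z
  simp only [adj_add, map_add, cross_add_left, tf_add_left, tf_add_right] at h1 h2 h3 h4
  rw [tri_apply, tri_apply, tri_apply, tf_cross, tf_cross_comm x (X y), tf_comm (cross x z),
    tf_comm (cross x y)]
  linear_combination h1 - h2 - h3 - h4 + h5 + h6 + h7

theorem der_of_tri [NeZero (2 : F)] [NeZero (3 : F)] {X : Alb a b c →ₗ[F] Alb a b c}
    (h : ∀ x y z, tri a b c (X x) y z + tri a b c x (X y) z + tri a b c x y (X z) = 0)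
    (x : Alb a b c) : tf (X x) (adj x) = 0 := by
  have h1 := h x x x
  rw [tri_apply, tri_apply, tri_apply, tf_cross_comm x (X x), tf_cross (X x), tf_comm (cross x x),
    Alb.cross_self, tf_smul_right] at h1
  have h2 : (2 : F) ≠ 0 := NeZero.ne 2
  have h3 : (3 : F) ≠ 0 := NeZero.ne 3
  have h4 : (3 * 2 : F) * tf (X x) (adj x) = 0 := by linear_combination h1
  exact (mul_eq_zero.1 h4).resolve_left (mul_ne_zero h3 h2)

theorem cub_of_tri [NeZero (2 : F)] [NeZero (3 : F)] {f : Alb a b c → Alb a b c}
    (h : ∀ x y z, tri a b c (f x) (f y) (f z) = tri a b c x y z) (x : Alb a b c) :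
    cub (f x) = cub x := by
  have h1 := h x x x
  rw [tri_self, tri_self] at h1
  have h2 : (2 : F) ≠ 0 := NeZero.ne 2
  have h3 : (3 : F) ≠ 0 := NeZero.ne 3
  have h6 : (6 : F) ≠ 0 := by
    have : (6 : F) = 2 * 3 := by norm_num
    rw [this]
    exact mul_ne_zero h2 h3
  exact mul_left_cancel₀ h6 h1

end tri

section g

variable {k E : Type} [Field k] [Field E] [Algebra k E]

/-- The Lie algebra over the ground field. -/
structure IsG (ρ σ : E ≃ₐ[k] E) (lam : Eˣ) (g : Fin 3 → Eˣ) {a b c : kˣ}
    (X : AlbL E a b c →ₗ[E] AlbL E a b c) : Prop where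
  /-- the map is a derivation of the cubic norm -/
  cub : ∀ x, Alb.tf (X x) (Alb.adj x) = 0
  /-- the map is skew -/
  her : ∀ x y, her σ g (X x) y + her σ g x (X y) = 0
  /-- the map commutes with the semilinear map -/
  ph : ∀ x, X (ph ρ lam x) = ph ρ lam (X x)

/-- The elements of the group, as linear maps. -/
structure IsM (ρ σ : E ≃ₐ[k] E) (lam : Eˣ) (g : Fin 3 → Eˣ) {a b c : kˣ}
    (f : AlbL E a b c →ₗ[E] AlbL E a b c) : Prop where
  /-- the cubic norm -/
  cub : ∀ x, Alb.cub (f x) = Alb.cub x
  /-- the hermitian form -/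
  her : ∀ x y, E6H.her σ g (f x) (f y) = E6H.her σ g x y
  /-- the semilinear map -/
  ph : ∀ x, f (E6H.ph ρ lam x) = E6H.ph ρ lam (f x)

variable {ρ σ : E ≃ₐ[k] E} {lam : Eˣ} {g : Fin 3 → Eˣ} {a b c : kˣ}

theorem IsM.mul {f f' : Module.End E (AlbL E a b c)} (h : IsM ρ σ lam g f)
    (h' : IsM ρ σ lam g f') : IsM ρ σ lam g (f * f') := by
  refine ⟨fun x => ?_, fun x y => ?_, fun x => ?_⟩
  · rw [Module.End.mul_apply, h.cub, h'.cub]
  · rw [Module.End.mul_apply, Module.End.mul_apply, h.her, h'.her]
  · rw [Module.End.mul_apply, Module.End.mul_apply, h'.ph, h.ph]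

theorem isM_one : IsM ρ σ lam g (1 : Module.End E (AlbL E a b c)) :=
  ⟨fun _ => rfl, fun _ _ => rfl, fun _ => rfl⟩

theorem her_add_left (x y z : AlbL E a b c) :
    E6H.her σ g (x + y) z = E6H.her σ g x z + E6H.her σ g y z := by
  rw [E6H.her, E6H.her, E6H.her, wt_add, tf_add_left]

theorem her_smul_left (t : E) (x z : AlbL E a b c) :
    E6H.her σ g (t • x) z = t * E6H.her σ g x z := by
  rw [E6H.her, E6H.her, wt_smul, tf_smul_left]

theorem her_add_right (x y z : AlbL E a b c) :
    E6H.her σ g x (y + z) = E6H.her σ g x y + E6H.her σ g x z := by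
  rw [E6H.her, E6H.her, E6H.her, amap_add, tf_add_right]

theorem her_smul_right (t : E) (x z : AlbL E a b c) :
    E6H.her σ g x (t • z) = σ t * E6H.her σ g x z := by
  rw [E6H.her, E6H.her, amap_smul, tf_smul_right]

theorem ph_add (x y : AlbL E a b c) :
    E6H.ph ρ lam (x + y) = E6H.ph ρ lam x + E6H.ph ρ lam y := by
  apply Alb.ext
  · simp [E6H.ph, mul_add]
  · simp [E6H.ph, mul_add]
  · simp [E6H.ph, mul_add]
  · simp [E6H.ph, omap_add, smul_add]
  · simp [E6H.ph, omap_add]
  · simp [E6H.ph, omap_add]

theorem ph_smul (t : E) (x : AlbL E a b c) :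
    E6H.ph ρ lam (t • x) = ρ t • E6H.ph ρ lam x := by
  apply Alb.ext
  · simp [E6H.ph, mul_left_comm]
  · simp [E6H.ph, mul_left_comm]
  · simp [E6H.ph, mul_left_comm]
  · simp only [E6H.ph, x3_smul, x1_smul, omap_smul]
    rw [smul_comm]
  · simp [E6H.ph, omap_smul]
  · simp [E6H.ph, omap_smul]

theorem eq_zero_of_her [NeZero (2 : E)] {x : AlbL E a b c}
    (h : ∀ y, E6H.her σ g x y = 0) : x = 0 := by
  have h1 : wt g x = 0 := by
    apply eq_zero_of_tf
    intro z
    have h2 := h (amap σ.symm z)
    rw [E6H.her] at h2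
    have h3 : amap σ (amap σ.symm z) = z := by
      have ho : ∀ o : OctL E a b c, omap σ (omap σ.symm o) = o := by
        intro o
        apply Oct.ext8 <;> exact σ.apply_symm_apply _
      apply Alb.ext
      · exact σ.apply_symm_apply _
      · exact σ.apply_symm_apply _
      · exact σ.apply_symm_apply _
      · exact ho _
      · exact ho _
      · exact ho _
    rwa [h3] at h2
  rw [← wt_inv_wt g x, h1]
  ext1 <;> simp [wt]

/-- A member of the group as a permutation. -/
theorem exists_perm [NeZero (2 : E)] {f : Module.End E (AlbL E a b c)} (h : IsM ρ σ lam g f) :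
    ∃ x : G3 ρ σ lam g a b c, ∀ v, (x.1 : Equiv.Perm (AlbL E a b c)) v = f v := by
  have hinj : Function.Injective f := by
    rw [← LinearMap.ker_eq_bot, LinearMap.ker_eq_bot']
    intro x hx
    apply eq_zero_of_her (σ := σ) (g := g)
    intro y
    have h1 := h.her x y
    rw [hx] at h1
    rw [← h1]
    have := her_smul_left (σ := σ) (g := g) (0 : E) (0 : AlbL E a b c) (f y)
    rwa [zero_smul, zero_mul] at this
  let e := LinearEquiv.ofInjectiveEndo f hinj
  refine ⟨⟨e.toEquiv, ⟨?_, ?_⟩⟩, fun v => rfl⟩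
  · exact ⟨⟨fun x y => map_add f x y, fun t x => map_smul f t x, h.cub⟩, h.her⟩
  · exact ⟨⟨fun x y => map_add f x y, fun t x => map_smul f t x, h.cub⟩, h.ph⟩

end g

section kmod

variable {k E : Type} [Field k] [Field E] [Algebra k E] {a b c : kˣ}

/-- The space over the ground field. -/
@[instance_reducible]
noncomputable def kmod (k E : Type) [Field k] [Field E] [Algebra k E] (a b c : kˣ) :
    Module k (AlbL E a b c) := Module.compHom _ (algebraMap k E)

attribute [local instance] kmod

theorem ksmul (t : k) (x : AlbL E a b c) : t • x = algebraMap k E t • x := rfl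

local instance tower : IsScalarTower k E (AlbL E a b c) :=
  ⟨fun x y z => by rw [ksmul, Algebra.smul_def, mul_smul]⟩

/-- The hermitian form over the ground field. -/
noncomputable def herK (σ : E ≃ₐ[k] E) (g : Fin 3 → Eˣ) :
    AlbL E a b c →ₗ[k] AlbL E a b c →ₗ[k] E :=
  LinearMap.mk₂ k (E6H.her σ g) her_add_left
    (fun t x y => by rw [ksmul, her_smul_left, Algebra.smul_def]) her_add_right
    (fun t x y => by rw [ksmul, her_smul_right, AlgEquiv.commutes, Algebra.smul_def])

/-- The semilinear map over the ground field. -/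
noncomputable def phK (ρ : E ≃ₐ[k] E) (lam : Eˣ) : AlbL E a b c →ₗ[k] AlbL E a b c where
  toFun := E6H.ph ρ lam
  map_add' := ph_add
  map_smul' t x := by rw [ksmul, ph_smul, AlgEquiv.commutes]; rfl

/-- Restriction of scalars. -/
noncomputable def rs : Module.End E (AlbL E a b c) →ₐ[k] Module.End k (AlbL E a b c) where
  toFun f := f.restrictScalars k
  map_one' := rfl
  map_mul' _ _ := rfl
  map_zero' := rfl
  map_add' _ _ := rfl
  commutes' t := by
    ext x : 1
    rfl

theorem rs_apply (f : Module.End E (AlbL E a b c)) (x : AlbL E a b c) : rs f x = f x := rfl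

variable [CharZero k] [FiniteDimensional k E]

theorem kfin : Module.Finite k (AlbL E a b c) :=
  Module.Finite.trans E (AlbL E a b c)

variable {ρ σ : E ≃ₐ[k] E} {lam : Eˣ} {g : Fin 3 → Eˣ}

omit [CharZero k] [FiniteDimensional k E] in
/-- A polynomial in a map that commutes with `ph` commutes with `ph`. -/
theorem aeval_ph {X : Module.End E (AlbL E a b c)}
    (h : ∀ x, X (E6H.ph ρ lam x) = E6H.ph ρ lam (X x)) (F : k[X]) (x : AlbL E a b c) :
    aeval X F (E6H.ph ρ lam x) = E6H.ph ρ lam (aeval X F x) := by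
  have h1 : Commute (rs X) (phK ρ lam) := LinearMap.ext fun x => h x
  have h2 : Commute (aeval (rs X) F) (phK ρ lam) := by
    induction F using Polynomial.induction_on' with
    | add p q hp hq => rw [map_add]; exact hp.add_left hq
    | monomial n a =>
      rw [aeval_monomial, ← Algebra.smul_def]
      exact (h1.pow_left n).smul_left a
  rw [aeval_algHom_apply] at h2
  exact congrArg (fun f : Module.End k (AlbL E a b c) => f x) h2.eq

/-- The parts of an element of the Lie algebra. -/
theorem IsG.parts {X : Module.End E (AlbL E a b c)} (h : IsG ρ σ lam g X) :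
    ∃ (s n : Module.End E (AlbL E a b c)) (m : k[X]), X = s + n ∧ Commute s n ∧ m.Separable ∧
      aeval s m = 0 ∧ IsNilpotent n ∧ IsG ρ σ lam g s ∧ IsG ρ σ lam g n := by
  have := kfin (k := k) (E := E) (a := a) (b := b) (c := c)
  have : CharZero E := charZero_of_injective_algebraMap (algebraMap k E).injective
  obtain ⟨G, m, hm, hs, hn⟩ := exists_jordan (k := k) X
  set s := aeval X G with hsd
  have hc : Commute s (X - s) := by
    have h1 : Commute s X := by
      have := Commute.all G (Polynomial.X : k[X])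
      have h2 := this.map (aeval (R := k) X)
      rwa [aeval_X] at h2
    exact h1.sub_right (Commute.refl s)
  have hX : s + (X - s) = X := by abel
  refine ⟨s, X - s, m, hX.symm, hc, hm, hs, hn, ?_⟩
  have hsp : ∀ x, s (E6H.ph ρ lam x) = E6H.ph ρ lam (s x) := aeval_ph h.ph G
  have hT := jordan_tri (k := E) (tri (up E a) (up E b) (up E c)) hc (m := m.map (algebraMap k E))
    hm.map (by rw [aeval_map_algebraMap]; exact hs) hn (by rw [hX]; exact tri_of_der h.cub)
  have hH := jordan_bil (k := k) (herK σ g) (s := rs s) (n := rs (X - s)) (hc.map rs) hm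
    (by rw [aeval_algHom_apply, hs, map_zero]) (hn.map rs) (by
      rw [← map_add, hX]
      exact h.her)
  refine ⟨⟨der_of_tri hT.1, hH.1, hsp⟩, ⟨der_of_tri hT.2, hH.2, fun x => ?_⟩⟩
  rw [LinearMap.sub_apply, LinearMap.sub_apply, h.ph, hsp, sub_eq_add_neg, sub_eq_add_neg]
  have h3 : ∀ y : AlbL E a b c, E6H.ph ρ lam (-y) = -E6H.ph ρ lam y := by
    intro y
    have := ph_smul (ρ := ρ) (lam := lam) (-1 : E) y
    rwa [map_neg, map_one, neg_one_smul, neg_one_smul] at this
  rw [ph_add, h3]

omit [FiniteDimensional k E] in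
/-- Multiples. -/
theorem IsG.smul {X : Module.End E (AlbL E a b c)} (h : IsG ρ σ lam g X) (t : k) :
    IsG ρ σ lam g (t • X) := by
  refine ⟨fun x => ?_, fun x y => ?_, fun x => ?_⟩
  · rw [LinearMap.smul_apply, ksmul, tf_smul_left, h.cub, mul_zero]
  · rw [LinearMap.smul_apply, LinearMap.smul_apply, ksmul, ksmul, her_smul_left, her_smul_right,
      AlgEquiv.commutes, ← mul_add, h.her, mul_zero]
  · rw [LinearMap.smul_apply, LinearMap.smul_apply, ksmul, ksmul, ph_smul, AlgEquiv.commutes, h.ph]

/-- The exponential of a nilpotent element. -/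
theorem IsG.exp {n : Module.End E (AlbL E a b c)} (h : IsG ρ σ lam g n) {j : ℕ}
    (hn : n ^ j = 0) : IsM ρ σ lam g (aeval n (expP k (3 * j + 1))) := by
  have : CharZero E := charZero_of_injective_algebraMap (algebraMap k E).injective
  refine ⟨?_, ?_, aeval_ph h.ph _⟩
  · apply cub_of_tri
    intro x y z
    have h1 := exp_tri (k := E) (tri (up E a) (up E b) (up E c)) hn (tri_of_der h.cub)
      (N := 3 * j + 1) le_rfl x y z
    have h2 : aeval n (expP E (3 * j + 1)) = aeval n (expP k (3 * j + 1)) := by
      rw [← aeval_map_algebraMap E n (expP k (3 * j + 1))]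
      congr 1
      simp [expP, Polynomial.map_sum]
    rwa [h2] at h1
  · intro x y
    have h1 := exp_bil (k := k) (herK σ g) (n := rs n) (j := j) (by rw [← map_pow, hn, map_zero])
      h.her (N := 3 * j + 1) le_rfl x y
    rw [aeval_algHom_apply] at h1
    exact h1

end kmod

end Vale.Agent.P011.H359.Rl
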